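import Vale.Agent.P284.H213.T3.S
import Vale.Agent.P284.H213.MF.MfD
import Vale.Agent.P284.H837.SpS
import Vale.Agent.P284.H501.Core.Spec
import Vale.Agent.P284.H661.T.Asm

/-!
# P284 (helper213), upgrade K: the statements for compact Kähler manifolds

The statements of the modules and of the assembly with the polarisation `PJ n X ι` deleted; `X` is a
compact Kähler manifold of the class `D`.
-/

open scoped Manifold ContDiff Topology Pointwise ComplexConjugate ComplexOrder ENNReal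
open Filter Set Metric MeasureTheory

noncomputable section

namespace Vale.Agent.P284.H213.K

open Vale.Agent.P272.K Vale.Agent.P284.H248 Vale.Agent.P284.H894 Vale.Agent.P284.H894.G
  Vale.Agent.P284.H894.V Vale.Agent.P284.H894.W Vale.Agent.P284.H894.F Vale.Agent.P284.H998
  Vale.Agent.P284.H213.Grp Vale.Agent.P284.H213.Q Vale.Agent.P284.H119.Kaz
  Vale.Agent.P284.H573 Vale.Agent.P284.H494 Vale.Agent.P284.H672 Vale.Agent.P284.H224
  Vale.Agent.P284.H279 Vale.Agent.P284.H213.MF Vale.Agent.P284.H837 Vale.Agent.P284.H213.T3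

/-! ### Albanese map, fibres, core -/

/-- **ALB+U**: the Albanese data exist, with a regular point. -/
def AlbUK (D : Cls) : Prop :=
  ∀ (n : ℕ) (X : Type) [TopologicalSpace X] [T2Space X] [CompactSpace X] [ConnectedSpace X]
    [ChartedSpace (Cm n) X] [IsManifold 𝓘(ℂ, Cm n) ω X]
    (_ : D n X) (w : Chart n X → Cm n → Matrix (Fin n) (Fin n) ℂ), IsKahler w →
    ∀ (E Γ : Type) [TopologicalSpace E] [SimplyConnectedSpace E] [Group Γ] [MulAction Γ E]
      (p : E → X), IsGalois Γ p →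
    ∃ (G K : Subgroup Γ) (q : ℕ) (F : E → Cm q) (c : Γ → Cm q), Alb p w G K F c ∧
      ∃ y, Reg (n := n) p F y

/-- **MF**: for every equivariant map to `ℂ^q` with lattice periods, of rank `q` somewhere, the generic
fibre is connected. -/
def MFK (D : Cls) : Prop :=
  ∀ (n : ℕ) (X : Type) [TopologicalSpace X] [T2Space X] [CompactSpace X] [ConnectedSpace X]
    [ChartedSpace (Cm n) X] [IsManifold 𝓘(ℂ, Cm n) ω X]
    (_ : D n X) (w : Chart n X → Cm n → Matrix (Fin n) (Fin n) ℂ), IsKahler w →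
    ∀ (E Γ : Type) [TopologicalSpace E] [ConnectedSpace E] [Group Γ] [MulAction Γ E]
      (p : E → X), IsGalois Γ p →
    ∀ (q : ℕ) (F : E → Cm q) (c : Γ → Cm q), (∃ B, HolB p w F B) → (∀ g y, F (g • y) = F y + c g) →
      LatChar Γ q c → (∃ y, Reg (n := n) p F y) → GenConn (n := n) p F

/-- **CORE**, amenable groups -/
def CoreK (D : Cls) : Prop :=
  ∀ (n : ℕ) (X : Type) [TopologicalSpace X] [T2Space X] [CompactSpace X] [ConnectedSpace X]
    [ChartedSpace (Cm n) X] [IsManifold 𝓘(ℂ, Cm n) ω X]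
    (_ : D n X) (w : Chart n X → Cm n → Matrix (Fin n) (Fin n) ℂ), IsKahler w →
    ∀ (E Γ : Type) [TopologicalSpace E] [ConnectedSpace E] [Group Γ] [MulAction Γ E]
      (p : E → X), IsGalois Γ p → Folner Γ →
    ∀ (q : ℕ) (F : E → Cm q) (c : Γ → Cm q) (K : Subgroup Γ), (∃ B, HolB p w F B) →
      (∀ g y, F (g • y) = F y + c g) → (∃ y, Reg (n := n) p F y) → GenConn (n := n) p F →
      NPkg Γ q c K → False

/-- **CORE**, kernels without property (T), normalised data -/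
def CoreTK (D : Cls) : Prop :=
  ∀ (n : ℕ) (X : Type) [TopologicalSpace X] [T2Space X] [CompactSpace X] [ConnectedSpace X]
    [ChartedSpace (Cm n) X] [IsManifold 𝓘(ℂ, Cm n) ω X]
    (_ : D n X) (w : Chart n X → Cm n → Matrix (Fin n) (Fin n) ℂ), IsKahler w →
    ∀ (E Γ : Type) [TopologicalSpace E] [ConnectedSpace E] [Group Γ] [MulAction Γ E]
      (p : E → X), IsGalois Γ p →
    ∀ (q : ℕ) (F : E → Cm q) (c : Γ → Cm q) (K : Subgroup Γ), (∃ B, HolB p w F B) →
      (∀ g y, F (g • y) = F y + c g) → (∃ y, Reg (n := n) p F y) → GenConn (n := n) p F →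
      NPkg Γ q c K → H573.DK.FinRep K → ¬ Kazhdan K → False

/-- **CORE**, kernels without property (T), strong form -/
def CoreTPK (D : Cls) : Prop :=
  ∀ (n : ℕ) (X : Type) [TopologicalSpace X] [T2Space X] [CompactSpace X] [ConnectedSpace X]
    [ChartedSpace (Cm n) X] [IsManifold 𝓘(ℂ, Cm n) ω X]
    (_ : D n X) (w : Chart n X → Cm n → Matrix (Fin n) (Fin n) ℂ), IsKahler w →
    ∀ (E Γ : Type) [TopologicalSpace E] [ConnectedSpace E] [Group Γ] [MulAction Γ E]
      (p : E → X), IsGalois Γ p →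
    ∀ (q : ℕ) (F : E → Cm q) (c : Γ → Cm q) (K : Subgroup Γ), (∃ B, HolB p w F B) →
      (∀ g y, F (g • y) = F y + c g) → (∃ y, Reg (n := n) p F y) → GenConn (n := n) p F →
      LatChar Γ q c → (∀ g, g ∈ K ↔ c g = 0) → Group.FG K → ¬ VirtIndicable K →
      H573.DK.FinRep K → ¬ Kazhdan K → False

/-- **CORE** of T2 -/
def CoreT2K (D : Cls) : Prop :=
  ∀ (n : ℕ) (X : Type) [TopologicalSpace X] [T2Space X] [CompactSpace X] [ConnectedSpace X]
    [ChartedSpace (Cm n) X] [IsManifold 𝓘(ℂ, Cm n) ω X]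
    (_ : D n X) (w : Chart n X → Cm n → Matrix (Fin n) (Fin n) ℂ), IsKahler w →
    ∀ (E Γ : Type) [TopologicalSpace E] [ConnectedSpace E] [Group Γ] [MulAction Γ E]
      (p : E → X), IsGalois Γ p → H573.DK.FinRep Γ → Kazhdan Γ

/-! ### Conclusions -/

/-- quotients of the group of a simply connected covering: the property `P Q n` holds -/
def MainSCK (D : Cls) (P : (Q : Type) → [Group Q] → ℕ → Prop) : Prop :=
  ∀ (n : ℕ) (X : Type) [TopologicalSpace X] [T2Space X] [CompactSpace X] [ConnectedSpace X]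
    [ChartedSpace (Cm n) X] [IsManifold 𝓘(ℂ, Cm n) ω X]
    (_ : D n X) (w : Chart n X → Cm n → Matrix (Fin n) (Fin n) ℂ), IsKahler w →
    ∀ (E Γ : Type) [TopologicalSpace E] [SimplyConnectedSpace E] [Group Γ] [MulAction Γ E]
      (p : E → X), IsGalois Γ p →
    ∀ (Q : Type) [Group Q] (f : Γ →* Q), Function.Surjective f → P Q n

/-- quotients of the fundamental group: the property `P Q n` holds -/
def MainPiK (D : Cls) (P : (Q : Type) → [Group Q] → ℕ → Prop) : Prop :=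
  ∀ (n : ℕ) (X : Type) [TopologicalSpace X] [T2Space X] [CompactSpace X] [ConnectedSpace X]
    [ChartedSpace (Cm n) X] [IsManifold 𝓘(ℂ, Cm n) ω X]
    (_ : D n X) (w : Chart n X → Cm n → Matrix (Fin n) (Fin n) ℂ), IsKahler w →
    ∀ (x : X) (Q : Type) [Group Q] (f : FundamentalGroup X x →* Q), Function.Surjective f → P Q n

/-- amenable quotients are virtually abelian of rank at most `2 n` -/
def PQ (Q : Type) [Group Q] (n : ℕ) : Prop := Folner Q → VirtAbelianRank Q (2 * n)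

/-- T3 -/
def PN (Q : Type) [Group Q] (n : ℕ) : Prop := T3N Q (2 * n)

/-- T3⁺ -/
def PT (Q : Type) [Group Q] (n : ℕ) : Prop := T3C Q (2 * n)

/-- T2 -/
def PT2 (Q : Type) [Group Q] (_ : ℕ) : Prop := H573.DK.FinRep Q → Kazhdan Q

/-! ### Connected fibres -/

/-- **EX** -/
def ExK : Prop :=
  ∀ (n q : ℕ) (X : Type) [TopologicalSpace X] [T2Space X] [CompactSpace X] [ConnectedSpace X]
    [ChartedSpace (Cm n) X] [IsManifold 𝓘(ℂ, Cm n) ω X]
    (w : Chart n X → Cm n → Matrix (Fin n) (Fin n) ℂ), IsKahler w →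
    ∀ (E Γ : Type) [TopologicalSpace E] [ConnectedSpace E] [Group Γ] [MulAction Γ E]
    (p : E → X), IsGalois Γ p →
    ∀ (F : E → Cm q) (c : Γ → Cm q), Per p w F c →
    ∀ y y' : E, F y' = F y → F y ∈ RV n p F → (∀ g : Γ, c g = 0 → ¬ Same F (g • y) y') →
    ∃ h : E → ℂ, ExFun n Γ p F c h

/-- **T5** -/
def T5K : Prop :=
  ∀ (n q : ℕ) (X : Type) [TopologicalSpace X] [T2Space X] [CompactSpace X] [ConnectedSpace X]
    [ChartedSpace (Cm n) X] [IsManifold 𝓘(ℂ, Cm n) ω X]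
    (w : Chart n X → Cm n → Matrix (Fin n) (Fin n) ℂ), IsKahler w →
    ∀ (E Γ : Type) [TopologicalSpace E] [ConnectedSpace E] [Group Γ] [MulAction Γ E]
    (p : E → X), IsGalois Γ p →
    ∀ (F : E → Cm q) (c : Γ → Cm q), Per p w F c → (∃ y, Reg (n := n) p F y) →
    ∀ (W : Type) [NormedAddCommGroup W] [InnerProductSpace ℂ W] [CompleteSpace W] (h : E → W),
      SheetHol n p F h → (∀ g : Γ, c g = 0 → ∀ y, Reg (n := n) p F y → ‖h (g • y)‖ = ‖h y‖) →
    ∃ s : Cm q → ℝ≥0∞, (∀ R : ℝ, ∫⁻ t in ball (0 : Cm q) R, s t < ⊤) ∧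
      ∀ y, F y ∈ RV n p F → ENNReal.ofReal (‖h y‖ ^ 2) ≤ s (F y)

/-- **MF(I)** for the class `D` -/
def OneK (D : Cls) : Prop :=
  ∀ (n q : ℕ) (X : Type) [TopologicalSpace X] [T2Space X] [CompactSpace X] [ConnectedSpace X]
    [ChartedSpace (Cm n) X] [IsManifold 𝓘(ℂ, Cm n) ω X]
    (_ : D n X) (w : Chart n X → Cm n → Matrix (Fin n) (Fin n) ℂ), IsKahler w →
    ∀ (E Γ : Type) [TopologicalSpace E] [ConnectedSpace E] [Group Γ] [MulAction Γ E]
      (p : E → X), IsGalois Γ p →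
    ∀ (F : E → Cm q) (c : Γ → Cm q), Per p w F c → (∃ y, Reg (n := n) p F y) → One n Γ p F c

/-- **MF(II)** for the class `D` -/
def NoRamK (D : Cls) : Prop :=
  ∀ (n q : ℕ) (X : Type) [TopologicalSpace X] [T2Space X] [CompactSpace X] [ConnectedSpace X]
    [ChartedSpace (Cm n) X] [IsManifold 𝓘(ℂ, Cm n) ω X]
    (_ : D n X) (w : Chart n X → Cm n → Matrix (Fin n) (Fin n) ℂ), IsKahler w →
    ∀ (E Γ : Type) [TopologicalSpace E] [ConnectedSpace E] [Group Γ] [MulAction Γ E]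
      (p : E → X), IsGalois Γ p →
    ∀ (F : E → Cm q) (c : Γ → Cm q), Per p w F c → (∃ y, Reg (n := n) p F y) →
    ∀ (hc : LatChar Γ q c) (Ed : (Cm q → ℂ) → Cm q → Prop), PerDiv (per c hc) Ed →
      (zs Ed).Nonempty → (∀ y, F y ∈ zs Ed → ¬ Reg (n := n) p F y) →
      (∀ v : Cm q, (∀ s : ℂ, ∀ x ∈ zs Ed, x + s • v ∈ zs Ed) → v = 0) → False

/-! ### Natural forms -/

/-- **SP** for special Kähler manifolds: no natural form of full rank, locally finite, on a Galois
covering. -/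
def SpK : Prop :=
  ∀ (n : ℕ) (X : Type) [TopologicalSpace X] [T2Space X] [CompactSpace X] [ConnectedSpace X]
    [ChartedSpace (Cm n) X] [IsManifold 𝓘(ℂ, Cm n) ω X]
    (w : Chart n X → Cm n → Matrix (Fin n) (Fin n) ℂ) (_ : IsKahler w) (_ : Special n X)
    (E Γ : Type) [TopologicalSpace E] [ConnectedSpace E] [Group Γ] [MulAction Γ E]
    (p : E → X) (_ : IsGalois Γ p)
    (q : ℕ) (F : E → Cm q) (c : Γ → Cm q)
    (_ : ∀ (y : E) (e : Chart n X), At e (p y) → ∃ f : Cm n → Cm q,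
      (∀ᶠ y' in 𝓝 y, F y' = f (e (p y'))) ∧ AnalyticAt ℂ f (e (p y)))
    (_ : ∀ g y, F (g • y) = F y + c g)
    (H : Type) [NormedAddCommGroup H] [InnerProductSpace ℂ H] [CompleteSpace H]
    (R m : ℕ) (_ : 1 ≤ R) (_ : 1 ≤ m) (v : E → Chart n X → (Fin R → Cm n) → H)
    (_ : HForm n R m p H v) (_ : Eqv Γ p v)
    (_ : ∃ y₀ e b γ t, NFF m p v F y₀ e b γ t) (_ : LFin Γ m p v F),
    False

end Vale.Agent.P284.H213.K
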