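import Vale.Agent.P284.H213.K.S
import Vale.Agent.P284.H501.Core.Fin
import Vale.Agent.P284.H501.T.UniT
import Vale.Agent.P284.H15.T.LimF

/-!
# P284 (helper213), upgrade K: the core for special Kähler manifolds

The proofs are those of helper501 (`Core/Uni.lean`, `T/UniT.lean`, `T/Sp0.lean`) without the
polarisation.
-/

open scoped Manifold ContDiff Topology ENNReal InnerProductSpace
open Filter Set Metric MeasureTheory

noncomputable section

namespace Vale.Agent.P284.H213.K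

open Vale.Agent.P272.K Vale.Agent.P284.H894 Vale.Agent.P284.H894.G Vale.Agent.P284.H894.V
  Vale.Agent.P284.H894.W Vale.Agent.P284.H573 Vale.Agent.P284.H213.Grp Vale.Agent.P284.H213.Q
  Vale.Agent.P284.H619 Vale.Agent.P284.H378 Vale.Agent.P284.H998 Vale.Agent.P284.H395
  Vale.Agent.P284.H837 Vale.Agent.P284.H625 Vale.Agent.P284.H501.Core Vale.Agent.P284.H501.T
  Vale.Agent.P284.H119.Kaz Vale.Agent.P284.H551 Vale.Agent.P284.H248

/-- full rank, special Kähler manifolds: the natural form is excluded by `SpK` -/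
theorem leafOut_spK (hSp : SpK) {q : ℕ}
    (n : ℕ) (X : Type) [TopologicalSpace X] [T2Space X] [CompactSpace X] [ConnectedSpace X]
    [ChartedSpace (Cm n) X] [IsManifold 𝓘(ℂ, Cm n) ω X] (hX : H248.Special n X)
    (w : Chart n X → Cm n → Matrix (Fin n) (Fin n) ℂ) (hw : IsKahler w)
    (E Γ : Type) [TopologicalSpace E] [ConnectedSpace E] [Group Γ] [MulAction Γ E]
    (p : E → X) (hG : IsGalois Γ p) (F : E → Cm q)
    (c : Γ → Cm q) (K : Subgroup Γ) (hF : ∃ B, HolB p w F B)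
    (hc : ∀ g y, F (g • y) = F y + c g) (hN : NPkg Γ q c K)
    (hO : LeafOut n q X E Γ p F K)
    (hLF : ∀ (r m : ℕ) (W H : Type) [NormedAddCommGroup W] [InnerProductSpace ℂ W]
      [CompleteSpace W] [NormedAddCommGroup H] [InnerProductSpace ℂ H] [CompleteSpace H]
      (π : Γ →* (W ≃ₗᵢ[ℂ] W)) (Θ : E → Chart n X → (Cm n →L[ℂ] W)) (M₀ : Set (Cm q)),
      IsMeagre M₀ → ThE p F K π Θ M₀ →
      (∃ y e, Reg (n := n) p F y ∧ At e (p y) ∧ ∃ ξ ∈ VS p F y e, Θ y e ξ ≠ 0) →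
      (∀ g, (∀ k ∈ K, g * k = k * g) → π g = 1) →
      ∀ (v : E → Chart n X → (Fin (q + (r + 1)) → Cm n) → H) (U : Γ → (H →ₗᵢ[ℂ] H))
      (N : Cm 0 →L[ℂ] Cm q) (𝒢 : Set E), LeafE (q + (r + 1)) p F m v U π Θ N 𝒢 →
      ∀ (D : LeafDat q (q + (r + 1)) 0 H), (∀ x, D.N x = N) → ∀ S : Subgroup Γ, IsSub c K N S →
      ∃ r₀ > 0, ∀ K₀ : Set E, IsCompact K₀ → (∀ y ∈ K₀, NZ p v y) →
        {a : Γ ⧸ S | ∃ g : Γ, (g : Γ ⧸ S) = a ∧ ∃ y ∈ K₀, ∃ b ∈ ball D.b₀ r₀,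
          Sh p v F D (g⁻¹ • y) b}.Finite) : False := by
  obtain ⟨W, _, _, _, π, Θ, M₀, r, m, H, _, _, _, v, U, N, 𝒢, hM₀, hThE, hThn, hπ, ⟨y, hy⟩, hL⟩ :=
    hO
  obtain ⟨B, hFB⟩ := hF
  refine hSp n X w hw hX E Γ p hG q F c (fun y e he => ?_) hc H (q + (r + 1)) m
    (by omega) hL.m_pos v hL.form (fun g => ⟨U g, fun y e he ξ => hL.equi g y e he ξ⟩)
    (nff_of_leaf hL hy) ?_
  · obtain ⟨f, h1, h2⟩ := H221.holB_an hFB y he
    exact ⟨f, h2, h1⟩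
  · refine lfin_of hG.cov hL.form hc hN N fun D hD S hS => ?_
    exact hLF r m W H π Θ M₀ hM₀ hThE hThn hπ v U N 𝒢 hL D hD S hS

/-- **CORE** for special Kähler manifolds, amenable groups -/
theorem coreK_sp (hSp : SpK) : CoreK H174.fspC := by
  intro n X _ _ _ _ _ _ hDX w hw E Γ _ _ _ _ p hG hFo q F c K hF hc hR hGC hN
  refine leafOut_spK hSp n X (special_of hDX) w hw E Γ p hG F c K hF hc hN
    (leafOut_of (H573.PT.limAt q) H812.NSF.ns2 H378.cStmt n X w hw E Γ p hG hFo F c K hF hc hR hGC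
      hN) ?_
  intro r m W H _ _ _ _ _ _ π Θ M₀ hM₀ hThE hThn hπ v U N 𝒢 hL D hD S hS
  exact H378.lfStmt n q (r + 1) 0 (q + (r + 1)) m X w hw E Γ p hG hFo F c K hF hc hN hGC hR W H π Θ
    M₀ hM₀ hThE hThn hπ v U N 𝒢 hL D hD S hS

/-- **CORE** for special Kähler manifolds, kernels without property (T) -/
theorem coreTK_sp (hLim : ∀ q, LimNT q) (hSp : SpK) : CoreTK H174.fspC := by
  intro n X _ _ _ _ _ _ hDX w hw E Γ _ _ _ _ p hG q F c K hF hc hR hGC hN hfr hKz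
  refine leafOut_spK hSp n X (special_of hDX) w hw E Γ p hG F c K hF hc hN
    (leafOutNT (hLim q) H812.NSF.ns2 n X w hw E Γ p hG F c K hF hc hR hGC hN hfr hKz) ?_
  intro r m W H _ _ _ _ _ _ π Θ M₀ hM₀ hThE hThn hπ v U N 𝒢 hL D hD S hS
  exact H378.F.lfStmtF n q (r + 1) 0 (q + (r + 1)) m X w hw E Γ p hG F c K hF hc hN hfr hGC
    hR W H π Θ M₀ hM₀ hThE hThn hπ v U N 𝒢 hL D hD S hS

/-- the core for `q = 0`, special Kähler manifolds -/
theorem core0_spK (hSp : SpK) {n : ℕ} {X : Type}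
    [TopologicalSpace X] [T2Space X] [CompactSpace X] [ConnectedSpace X]
    [ChartedSpace (Cm n) X] [IsManifold 𝓘(ℂ, Cm n) ω X]
    (hDX : FSp n X) {w : Chart n X → Cm n → Matrix (Fin n) (Fin n) ℂ} (hw : IsKahler w)
    {E Γ : Type} [TopologicalSpace E] [ConnectedSpace E] [Group Γ] [MulAction Γ E]
    {p : E → X} (hG : IsGalois Γ p) (hfr : H573.DK.FinRep Γ) :
    ¬ Lim0Concl (n := n) (Γ := Γ) p := by
  rintro ⟨W', i1', i2', i3', π', Θ', u', hΘ', hπ', hpot', hb', hne'⟩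
  obtain ⟨W, i1, i2, i3, π, Θ, u, hΘ, hπ, hpot, hb, hne, hspan⟩ :=
    exists_res0 hG.cov (fun g y => ((hG.orb y (g • y)).2 ⟨g, rfl⟩).symm) hΘ' hπ' hpot' hb' hne'
  set F : E → Cm 0 := fun _ => 0 with hF
  obtain ⟨r, m, H, j1, j2, j3, v, U, N, 𝒢, ⟨y, hy⟩, hL⟩ :=
    leaf0_of H812.NSF.ns2 hw hG hfr hΘ hπ hpot hb hne F
  obtain ⟨C, -, -, -, -⟩ := exists_eCoc hw hG
  have hfg : Group.FG Γ := H639.V.fg_of_coc C
  refine hSp n X w hw (special_of hDX) E Γ p hG 0 F (fun _ => 0) (fun y e he => ?_)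
    (fun g y => by simp [hF]) H (0 + (r + 1)) m (by omega) hL.m_pos v hL.form
    (fun g => ⟨U g, fun y e he ξ => hL.equi g y e he ξ⟩) (nff_of_leaf hL hy) ?_
  · exact ⟨fun _ => 0, Eventually.of_forall fun _ => rfl, analyticAt_const⟩
  · exact H378.T.lfin0 hG hfg hfr (t := 0) (vpot0 hΘ hpot F 0) (vequi0 hπ hb F 0 ⊤) hspan hL

/-- **CORE of T2** for special Kähler manifolds -/
theorem coreT2K_sp (hSp : SpK) : CoreT2K H174.fspC := by
  intro n X _ _ _ _ _ _ hDX w hw E Γ _ _ _ _ p hG hfr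
  by_contra hK
  exact core0_spK hSp hDX hw hG hfr (H15.T.limK n X w hw E Γ p hG hK)

end Vale.Agent.P284.H213.K
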