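import Vale.Agent.P284.H213.K.Mf
import Vale.Agent.P284.H174.EtSp

/-!
# P284 (helper213), upgrade K: Albanese map and MF for special Kähler manifolds

The proofs are those of `H174/NoFE.lean`, `H174/SpE.lean`, `H174/AlbD.lean` and `H224/Sp.lean` without
the polarisation.
-/

open scoped Manifold ContDiff Topology ENNReal InnerProductSpace
open Filter Set Metric MeasureTheory

noncomputable section

namespace Vale.Agent.P284.H213.K

open Vale.Agent.P272.K Vale.Agent.P284.H248 Vale.Agent.P284.H573 Vale.Agent.P284.H894.G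
  Vale.Agent.P284.H894.W Vale.Agent.P284.H494 Vale.Agent.P284.H998 Vale.Agent.P284.H672
  Vale.Agent.P284.H224 Vale.Agent.P284.H279 Vale.Agent.P284.H213.Grp Vale.Agent.P284.H213.Q
  Vale.Agent.P284.H213.MF Vale.Agent.P284.H10 Vale.Agent.P284.H837 Vale.Agent.P284.H174
  Vale.Agent.P284.H221

/-- **SP** without the equivariance hypothesis -/
theorem sp_noeqvK (h : SpK) :
    ∀ (n : ℕ) (X : Type) [TopologicalSpace X] [T2Space X] [CompactSpace X] [ConnectedSpace X]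
    [ChartedSpace (Cm n) X] [IsManifold 𝓘(ℂ, Cm n) ω X]
    (w : Chart n X → Cm n → Matrix (Fin n) (Fin n) ℂ) (_ : IsKahler w) (_ : Special n X)
    (E Γ : Type) [TopologicalSpace E] [ConnectedSpace E] [Group Γ] [MulAction Γ E]
    (p : E → X) (_ : IsGalois Γ p)
    (q : ℕ) (F : E → Cm q) (c : Γ → Cm q)
    (_ : ∀ (y : E) (e : Chart n X), At e (p y) → ∃ f : Cm n → Cm q,
      (∀ᶠ y' in 𝓝 y, F y' = f (e (p y'))) ∧ AnalyticAt ℂ f (e (p y)))
    (_ : ∀ g y, F (g • y) = F y + c g)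
    (H : Type) [NormedAddCommGroup H] [InnerProductSpace ℂ H] [CompleteSpace H]
    (R m : ℕ) (_ : 1 ≤ R) (_ : 1 ≤ m) (v : E → Chart n X → (Fin R → Cm n) → H)
    (_ : HForm n R m p H v)
    (_ : ∃ y₀ e b γ t, NFF m p v F y₀ e b γ t) (_ : LFin Γ m p v F),
    False := by
  intro n X _ _ _ _ _ _ w hw hS E Γ _ _ _ _ p hG q F c hF hc H _ _ _ R m hR hm v hv hN hL
  obtain ⟨y₀, e, b, γ, t, hN⟩ := hN
  refine h n X w hw hS E Γ p hG q F c hF hc (EQ.VS p v) R m hR hm (EQ.vS p v) (EQ.vS_hform hG.cov hv)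
    (fun g => ?_) ⟨y₀, e, b, _, t, EQ.nff_vS hG.cov hN⟩ (EQ.lfin_vS hG.cov hL)
  obtain ⟨U, hU⟩ := EQ.vS_eqv hG hv g
  exact ⟨U.toLinearIsometry, hU⟩

/-- special manifolds -/
theorem noFE_specialK (h : SpK) {n : ℕ} {X : Type} [TopologicalSpace X] [T2Space X]
    [CompactSpace X] [ConnectedSpace X] [ChartedSpace (Cm n) X] [IsManifold 𝓘(ℂ, Cm n) ω X]
    {w : Chart n X → Cm n → Matrix (Fin n) (Fin n) ℂ} (hw : IsKahler w) (hS : Special n X) :
    NoFE n X := by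
  intro E Γ _ _ _ _ p hG S hSf R m hR hm H _ _ _ v hv hfix hgood
  obtain ⟨y₀, e, b, γ, hN⟩ := hgood
  refine sp_noeqvK h n X w hw hS E Γ p hG 0 (fun _ => 0) (fun _ => 0)
    (fun y e _ => ⟨fun _ => 0, Eventually.of_forall fun _ => rfl, analyticAt_const⟩)
    (fun g y => (add_zero _).symm) H R m hR hm v hv
    ⟨y₀, e, b, γ, fun _ => 0, hN, analyticAt_const, Eventually.of_forall fun _ => rfl⟩
    (EQ.lfin_of_finite S hSf (fun _ _ _ => rfl) hfix)

/-- **ALB+U** for a class of manifolds -/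
theorem albUK_of {D : Cls}
    (h : ∀ (n : ℕ) (X : Type) [TopologicalSpace X] [T2Space X] [CompactSpace X] [ConnectedSpace X]
      [ChartedSpace (Cm n) X] [IsManifold 𝓘(ℂ, Cm n) ω X]
      (w : Chart n X → Cm n → Matrix (Fin n) (Fin n) ℂ), IsKahler w → D n X → NoFE n X) :
    AlbUK D := by
  intro n X _ _ _ _ _ _ hD w hw E Γ _ _ _ _ p hG
  exact albU_of n X w hw E Γ p hG (s1u n X w hw E Γ p hG) (regOn_of_noFE (h n X w hw hD) hG)

/-- **ALB+U** for special Kähler manifolds -/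
theorem albUK_sp (h : SpK) : AlbUK fspC :=
  albUK_of fun _ _ _ _ _ _ _ _ _ hw hD => noFE_specialK h hw (special_of_fsp hD)

/-- **MF(II)** for the classes with `NoFE` -/
theorem noRamK_of_noFE {D : Cls}
    (hD : ∀ (n : ℕ) (X : Type) [TopologicalSpace X] [T2Space X] [CompactSpace X] [ConnectedSpace X]
      [ChartedSpace (Cm n) X] [IsManifold 𝓘(ℂ, Cm n) ω X]
      (w : Chart n X → Cm n → Matrix (Fin n) (Fin n) ℂ), IsKahler w → D n X → NoFE n X) :
    NoRamK D := by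
  intro n q X _ _ _ _ _ _ hDX w hw E Γ _ _ _ _ p hp F c hF hreg hc Ed hEd hne hcrit hdir
  obtain ⟨m, k, γ, v, hq, hm, hv, hinv, -, -, -, y, -, hy⟩ := multStmt n q X w E Γ p hp F c hF hreg
    (per c hc) (fun g => ⟨g, rfl⟩) (coco_of hc) Ed hEd hne hcrit hdir
  exact hD n X w hw hDX E Γ p hp ⊤ inferInstance q m hq hm _ v hv (fun g _ => hinv g) ⟨y, hy⟩

/-- **MF(II)** for special Kähler manifolds -/
theorem noRamK_sp (h : SpK) : NoRamK fspC :=
  noRamK_of_noFE fun _ _ _ _ _ _ _ _ _ hw hD => noFE_specialK h hw (special_of_fsp hD)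

/-- **MF(I)** for special manifolds -/
theorem oneK_sp (hSp : SpK) (hEx : ExK) (hT5 : T5K) (hRat : RatStmt) : OneK fspC := by
  intro n q X _ _ _ _ _ _ hD w hw E Γ _ _ _ _ p hp F c hF hreg y y' hyy hrv
  by_contra hcon
  push Not at hcon
  obtain ⟨h, hh⟩ := hEx n q X w hw E Γ p hp F c hF y y' hyy hrv hcon
  obtain ⟨W, _, _, _, h₁, hs, hU, hne, hker⟩ := H661.Lim.limStmt' n q X w E Γ p hp F c hF h hh
  obtain ⟨s, hs1, hs2⟩ := hT5 n q X w hw E Γ p hp F c hF hreg W h₁ hs (by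
    intro g _ y hy
    obtain ⟨U, hU⟩ := hU g
    rw [hU y hy, U.norm_map])
  have hS : SheetFun n Γ p F h₁ :=
    { loc := hs.loc, ext := hs.ext, equiv := hU, int := ⟨s, hs1, hs2⟩, ne := hne }
  obtain ⟨r, m, π, H, _, _, _, v, hq, hr, hm, hπ, -, hloc, hv, heqv, hfix, hnf⟩ :=
    tailEqStmt n q X w E Γ p hp F c hF W h₁ hS
  have hlat := hRat n q r X w E Γ p hp F c hF (lat_of_per hp hF hreg) hreg W h₁ hS π hπ hloc
  obtain ⟨B, hB⟩ := hF.hol
  have hloc' : ∀ y, Reg (n := n) p F y → ∃ f : Cm r → W, AnalyticAt ℂ f (π (F y)) ∧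
      ∀ᶠ y' in 𝓝 y, h₁ y' = f (π (F y')) := by
    intro y hy
    obtain ⟨f, h1, h2, -⟩ := hloc y hy
    exact ⟨f, h1, h2⟩
  have hequiv : ∀ (g : Γ) (y : E), π (F (g • y)) = π (F y) + π (c g) := by
    intro g y
    rw [hF.equiv, map_add]
  refine hSp n X w hw (special_of_fsp hD) E Γ p hp r (fun y => π (F y)) (fun g => π (c g)) ?_ hequiv
    H r m hr hm v hv heqv hnf ?_
  · intro y e he
    obtain ⟨f, h1, h2, -⟩ := hB y e he
    refine ⟨fun z => π (f z), h1.mono fun y' h => by rw [h], ?_⟩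
    have h3 := (Vale.Agent.P299.H720.contDiffAt_of_eventually h2).analyticAt
    exact (π.analyticAt _).comp h3
  · have hFc := hF.continuous hp.cov
    refine Fin.lfin_of_finidx hequiv (π.continuous.comp hFc) hlat.disc (Fin.fixS h₁ hp hF π)
      (fun g hg => hg.1) (fun g hg => hfix g hg.2)
      (Fin.fin_of hq hp hF hreg hU (fun g hg y hy => ?_) π hπ hloc')
    exact hker g hg y hy

/-- **MF** for special Kähler manifolds -/
theorem mfK_sp (hSp : SpK) (hEx : ExK) (hT5 : T5K) (hRat : RatStmt) : MFK fspC :=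
  mfK_of (oneK_sp hSp hEx hT5 hRat) rvStmt preStmt (br_of d1Stmt topStmt) (noRamK_sp hSp)

end Vale.Agent.P284.H213.K
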