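import Vale.Agent.P284.H213.K.Asm
import Vale.Agent.P284.H213.K.Sp
import Vale.Agent.P284.H213.K.Core
import Vale.Agent.P284.H136.Line2

/-!
# P284 (helper213), upgrade K: the theorems for special Kähler manifolds, from `SpK`, `ExK`, `T5K`
-/

open scoped Manifold ContDiff Topology

noncomputable section

namespace Vale.Agent.P284.H213.K

open Vale.Agent.P272.K Vale.Agent.P284.H213.Q Vale.Agent.P284.H174 Vale.Agent.P284.H998
  Vale.Agent.P284.H837 Vale.Agent.P284.H501.T Vale.Agent.P284.H894.G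

/-- **MF** for special Kähler manifolds -/
theorem mfK_spU (hSp : SpK) (hEx : ExK) (hT5 : T5K) : MFK fspC :=
  mfK_sp hSp hEx hT5 (H224.rat_of H136.Rat.lineStmt)

/-- **T1'** for compact Kähler manifolds: amenable quotients of `π₁` of a special manifold -/
theorem mainQK (hSp : SpK) (hEx : ExK) (hT5 : T5K) : MainPiK fspC PQ :=
  mainPiK_of (mainSCQK_of etSt_fsp (albUK_sp hSp) (mfK_spU hSp hEx hT5) (coreK_sp hSp))

/-- **T2** for compact Kähler manifolds -/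
theorem mainT2K (hSp : SpK) : MainPiK fspC PT2 := mainPiK_of (mainSCT2K_of (coreT2K_sp hSp))

/-- **T3** for compact Kähler manifolds -/
theorem mainNK (hSp : SpK) (hEx : ExK) (hT5 : T5K) (hLim : ∀ q, 1 ≤ q → H366.LimAtT q) :
    MainPiK fspC PN :=
  mainPiK_of (mainSCNK_of etSt_fsp (albUK_sp hSp) (mfK_spU hSp hEx hT5)
    (coreTK_sp (limNT_all (fun n X _ _ _ _ _ _ w hw E Γ _ _ _ _ p hG hK =>
      H15.T.limK n X w hw E Γ p hG hK) hLim) hSp))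

/-- **T3⁺** for compact Kähler manifolds, from the core -/
theorem mainTK (hSp : SpK) (hEx : ExK) (hT5 : T5K) (hCo : CoreTPK fspC) : MainPiK fspC PT :=
  mainPiK_of (mainSCTK_of etSt_fsp (albUK_sp hSp) (mfK_spU hSp hEx hT5) hCo)

/-! ### Projective manifolds -/

/-- the projective manifolds of the class `D` -/
def pjC (D : Cls) : Cls := fun n X _ _ => (∃ (ι : Type) (_ : Fintype ι), Nonempty (PJ n X ι)) ∧ D n X

theorem etSt_pj {D : Cls} (h : EtSt D) : EtSt (pjC D) := by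
  intro n X _ _ _ _ _ _ Y _ _ _ _ _ _ π hπ hπc hD
  obtain ⟨⟨ι, hι, ⟨J⟩⟩, hD⟩ := hD
  exact ⟨⟨ι, hι, ⟨hπ.pj J⟩⟩, h n X Y π hπ hπc hD⟩

theorem albUK_pj {D : Cls} (h : AlbUD D) : AlbUK (pjC D) := by
  intro n X _ _ _ _ _ _ hD
  obtain ⟨⟨ι, hι, ⟨J⟩⟩, hD⟩ := hD
  exact h n X ι J hD

theorem mfK_pj {D : Cls} (h : MFD D) : MFK (pjC D) := by
  intro n X _ _ _ _ _ _ hD
  obtain ⟨⟨ι, hι, ⟨J⟩⟩, hD⟩ := hD
  exact h n X ι J hD

theorem coreK_pj {D : Cls} (h : CoreD D) : CoreK (pjC D) := by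
  intro n X _ _ _ _ _ _ hD
  obtain ⟨⟨ι, hι, ⟨J⟩⟩, hD⟩ := hD
  exact h n X ι J hD

theorem coreTK_pj {D : Cls} (h : T3.CoreT D) : CoreTK (pjC D) := by
  intro n X _ _ _ _ _ _ hD
  obtain ⟨⟨ι, hι, ⟨J⟩⟩, hD⟩ := hD
  exact h n X ι J hD

theorem coreTPK_pj {D : Cls} (h : T3.CoreTP D) : CoreTPK (pjC D) := by
  intro n X _ _ _ _ _ _ hD
  obtain ⟨⟨ι, hι, ⟨J⟩⟩, hD⟩ := hD
  exact h n X ι J hD

theorem coreT2K_pj {D : Cls} (h : H661.T.CoreT2 D) : CoreT2K (pjC D) := by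
  intro n X _ _ _ _ _ _ hD
  obtain ⟨⟨ι, hι, ⟨J⟩⟩, hD⟩ := hD
  exact h n X ι J hD

end Vale.Agent.P284.H213.K
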