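import Vale.Agent.P284.H213.K.S
import Vale.Agent.P284.H213.MF.MfU
import Vale.Agent.P284.H224.Sp

/-!
# P284 (helper213), upgrade K: MF for a class `D` of compact Kähler manifolds

The proofs are those of `MF/MfD.lean` and `H224/Sp.lean` without the polarisation.
-/

open scoped Manifold ContDiff Topology ENNReal
open Filter Set Metric MeasureTheory

noncomputable section

namespace Vale.Agent.P284.H213.K

open Vale.Agent.P272.K Vale.Agent.P284.H573 Vale.Agent.P284.H894.G Vale.Agent.P284.H894.W
  Vale.Agent.P284.H494 Vale.Agent.P284.H998 Vale.Agent.P284.H672 Vale.Agent.P284.H224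
  Vale.Agent.P284.H279 Vale.Agent.P284.H213.Grp Vale.Agent.P284.H213.Q Vale.Agent.P284.H213.MF
  Vale.Agent.P284.H10 Vale.Agent.P284.H837 Vale.Agent.P284.H174

/-- **MF** for the class `D`: assembly -/
theorem mfK_of {D : Cls} (hOne : OneK D) (hRV : RVStmt) (hPre : PreStmt) (hBr : BrStmt)
    (hRam : NoRamK D) : MFK D := by
  intro n X _ _ _ _ _ _ hD w hw E Γ _ _ _ _ p hp
  -- all regular fibres are connected
  have key : ∀ (q : ℕ) (F : E → Cm q) (c : Γ → Cm q), Per p w F c → LatChar Γ q c →
      (∃ y, Reg (n := n) p F y) → ∀ t ∈ RV n p F, IsConnected (F ⁻¹' {t}) := by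
    intro q
    induction q using Nat.strong_induction_on with
    | _ q ih =>
    intro F c hF hc hreg
    have hone := hOne n q X hD w hw E Γ p hp F c hF hreg
    obtain ⟨Ed, hEd, hcrit, htop⟩ := hBr n q X w E Γ p hp F c hF hreg hone hc
    rcases (zs Ed).eq_empty_or_nonempty with hemp | hne
    · refine htop univ isOpen_univ convex_univ univ_nonempty ?_ ?_
      · rw [preimage_univ]; exact isPreconnected_univ
      · rw [hemp]; exact disjoint_empty _
    by_cases hdir : dirs hEd = ⊥
    · exact (hRam n q X hD w hw E Γ p hp F c hF hreg hc Ed hEd hne hcrit (fun v hv => by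
        have := dirs_of hEd hv
        rwa [hdir, Submodule.mem_bot] at this)).elim
    -- the quotient torus
    set V : Submodule ℂ (Cm q) := dirs hEd with hV
    set r : ℕ := Module.finrank ℂ (Cm q ⧸ V) with hr
    have hVpos : 0 < Module.finrank ℂ V := Nat.pos_of_ne_zero fun h => hdir (Submodule.finrank_eq_zero.1 h)
    have hsum : Module.finrank ℂ (Cm q ⧸ V) + Module.finrank ℂ V = q := by
      have := V.finrank_quotient_add_finrank
      rwa [Module.finrank_fin_fun] at this
    have hrq : r < q := by omega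
    let e : (Cm q ⧸ V) ≃ₗ[ℂ] Cm r := LinearEquiv.ofFinrankEq _ _ (by
      rw [Module.finrank_fin_fun])
    set L : Cm q →ₗ[ℂ] Cm r := e.toLinearMap ∘ₗ V.mkQ with hL
    have hLs : Function.Surjective L := e.surjective.comp V.mkQ_surjective
    have hker : LinearMap.ker L = V := by
      ext v
      rw [LinearMap.mem_ker, hL, LinearMap.comp_apply, LinearEquiv.coe_coe,
        LinearEquiv.map_eq_zero_iff, Submodule.mkQ_apply, Submodule.Quotient.mk_eq_zero]
    have hlat : LatChar Γ r (fun g => L (c g)) := by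
      refine hc.quot ⊤ V (fun v hv => ?_) L hLs hker
      have h1 := dirs_span hEd (coco_of hc) hv
      refine Submodule.span_mono ?_ h1
      rintro x ⟨⟨g, rfl⟩, hx⟩
      exact ⟨⟨g, trivial, rfl⟩, hx⟩
    have hF' := per_linear hF L hlat
    obtain ⟨B, hB⟩ := hF.hol
    have hreg' : ∃ y, Reg (n := n) p (fun y => L (F y)) y := by
      obtain ⟨y, hy⟩ := hreg
      exact ⟨y, Reg.linear hp.cov hB L hLs hy⟩
    have hih := ih r hrq (fun y => L (F y)) (fun g => L (c g)) hF' hlat hreg'
    have hpre := hPre n r X w E Γ p hp (fun y => L (F y)) (fun g => L (c g)) hF' hreg' hih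
    -- a ball of the quotient which does not meet the divisor
    obtain ⟨t₀, ht₀⟩ := zs_ne_univ hEd
    have hLc : Continuous L := L.continuous_of_finiteDimensional
    have hLo : IsOpenMap L := by
      have := (LinearMap.toContinuousLinearMap L).isOpenMap hLs
      exact this
    have hopen : IsOpen (L '' (zs Ed)ᶜ) := hLo _ (MF.zs_closed hEd).isOpen_compl
    obtain ⟨ρ, hρ, hball⟩ := Metric.isOpen_iff.1 hopen (L t₀) ⟨t₀, ht₀, rfl⟩
    refine htop (L ⁻¹' ball (L t₀) ρ) (isOpen_ball.preimage hLc) ?_ ⟨t₀, mem_ball_self hρ⟩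
      (hpre (ball (L t₀) ρ) isOpen_ball (convex_ball _ _)) ?_
    · exact (convex_ball (L t₀) ρ).linear_preimage (L.restrictScalars ℝ)
    · rw [Set.disjoint_left]
      intro t ht htz
      obtain ⟨s, hs, hst⟩ := hball ht
      have h1 : t - s ∈ V := by
        rw [← hker, LinearMap.mem_ker, map_sub, hst, sub_self]
      apply hs
      have h2 := dirs_smul hEd h1 s
      rw [add_sub_cancel] at h2
      exact h2.1 htz
  intro q F c hB heq hc hreg
  have hF : Per p w F c := ⟨hB, heq, hc.disc⟩
  obtain ⟨h1, h2, -⟩ := hRV n q X w E Γ p hp F c hF hreg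
  refine ⟨(RV n p F)ᶜ, h1.isClosed_compl, ?_, fun t ht => ?_⟩
  · rw [interior_compl, h2.closure_eq, compl_univ]
  · rw [notMem_compl_iff] at ht
    exact ⟨key q F c hF hc hreg t ht, ht⟩

end Vale.Agent.P284.H213.K
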